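import Mathlib

/-!
P092 (helper71), TEAM P, block [P-GAP], abstract half: if the coefficients of a unitary
representation of `SL_2(k)` decay polynomially on a total set of vectors, then finite averages over
`SL_2(k)` contract uniformly; the averages depend only on the rate. Any nontrivially normed field.
-/

set_option linter.all false

open scoped InnerProductSpace
open Filter Topology

namespace Vale.Agent.P092.H71.G

/-! ### Log-convexity -/

section cvx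

variable {H : Type*} [NormedAddCommGroup H] [InnerProductSpace ℂ H]

theorem sq_le_mul {T : H →L[ℂ] H} (hT : ∀ x y, ⟪T x, y⟫_ℂ = ⟪x, T y⟫_ℂ) (ξ : H) (n : ℕ) :
    ‖(T ^ (n + 1)) ξ‖ ^ 2 ≤ ‖(T ^ n) ξ‖ * ‖(T ^ (n + 2)) ξ‖ := by
  have e1 : (T ^ (n + 1)) ξ = T ((T ^ n) ξ) := by rw [pow_succ']; rfl
  have e2 : (T ^ (n + 2)) ξ = T ((T ^ (n + 1)) ξ) := by rw [pow_succ' T (n + 1)]; rfl
  have h1 : ⟪(T ^ (n + 1)) ξ, (T ^ (n + 1)) ξ⟫_ℂ = ⟪(T ^ n) ξ, (T ^ (n + 2)) ξ⟫_ℂ := by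
    rw [e2, ← hT, ← e1]
  have h2 := norm_inner_le_norm (𝕜 := ℂ) ((T ^ n) ξ) ((T ^ (n + 2)) ξ)
  rw [← h1, inner_self_eq_norm_sq_to_K] at h2
  have h3 : ‖((‖(T ^ (n + 1)) ξ‖ : ℂ)) ^ 2‖ = ‖(T ^ (n + 1)) ξ‖ ^ 2 := by
    rw [norm_pow, Complex.norm_real, norm_norm]
  calc ‖(T ^ (n + 1)) ξ‖ ^ 2 = ‖((‖(T ^ (n + 1)) ξ‖ : ℂ)) ^ 2‖ := h3.symm
    _ ≤ _ := h2

/-- **a selfadjoint operator whose powers decay at rate `ρ` on `ξ` satisfies `‖T ξ‖ ≤ ρ ‖ξ‖`** -/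
theorem norm_le_of_pow {T : H →L[ℂ] H} (hT : ∀ x y, ⟪T x, y⟫_ℂ = ⟪x, T y⟫_ℂ) {ρ : ℝ}
    (hρ : 0 < ρ) {ξ : H} {C : ℝ} (h : ∀ n : ℕ, ‖(T ^ n) ξ‖ ≤ C * ρ ^ n) :
    ‖T ξ‖ ≤ ρ * ‖ξ‖ := by
  by_contra hcon
  rw [not_le] at hcon
  have h0 : ‖ξ‖ ≠ 0 := by
    intro h0
    have : ξ = 0 := norm_eq_zero.1 h0
    rw [this, map_zero, norm_zero, mul_zero] at hcon
    exact lt_irrefl _ hcon
  have h0' : 0 < ‖ξ‖ := lt_of_le_of_ne (norm_nonneg _) (Ne.symm h0)
  obtain ⟨q, hq⟩ : ∃ q : ℝ, q = ‖T ξ‖ / ‖ξ‖ := ⟨_, rfl⟩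
  have hqρ : ρ < q := by rw [hq, lt_div_iff₀ h0']; exact hcon
  have hq0 : 0 < q := hρ.trans hqρ
  have key : ∀ n : ℕ, 0 < ‖(T ^ n) ξ‖ ∧ q * ‖(T ^ n) ξ‖ ≤ ‖(T ^ (n + 1)) ξ‖ := by
    intro n
    induction n with
    | zero =>
      refine ⟨by simpa using h0', ?_⟩
      rw [pow_zero, zero_add, pow_one, hq]
      change ‖T ξ‖ / ‖ξ‖ * ‖ξ‖ ≤ _
      rw [div_mul_cancel₀ _ h0]
    | succ n ih =>
      obtain ⟨i1, i2⟩ := ih
      have j1 : 0 < ‖(T ^ (n + 1)) ξ‖ := (mul_pos hq0 i1).trans_le i2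
      refine ⟨j1, ?_⟩
      have j2 := sq_le_mul hT ξ n
      have j3 : q * ‖(T ^ n) ξ‖ * ‖(T ^ (n + 1)) ξ‖ ≤ ‖(T ^ n) ξ‖ * ‖(T ^ (n + 2)) ξ‖ := by
        refine le_trans ?_ j2
        rw [sq]
        exact mul_le_mul_of_nonneg_right i2 j1.le
      have j4 : ‖(T ^ n) ξ‖ * (q * ‖(T ^ (n + 1)) ξ‖) ≤ ‖(T ^ n) ξ‖ * ‖(T ^ (n + 2)) ξ‖ := by
        refine le_trans (le_of_eq ?_) j3
        ring
      exact le_of_mul_le_mul_left j4 i1
  have key2 : ∀ n : ℕ, ‖ξ‖ * q ^ n ≤ ‖(T ^ n) ξ‖ := by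
    intro n
    induction n with
    | zero => simp
    | succ n ih =>
      calc ‖ξ‖ * q ^ (n + 1) = q * (‖ξ‖ * q ^ n) := by ring
        _ ≤ q * ‖(T ^ n) ξ‖ := mul_le_mul_of_nonneg_left ih hq0.le
        _ ≤ _ := (key n).2
  have h1 : 1 < q / ρ := by rw [lt_div_iff₀ hρ, one_mul]; exact hqρ
  obtain ⟨n, hn⟩ := ((tendsto_pow_atTop_atTop_of_one_lt h1).eventually_gt_atTop (C / ‖ξ‖)).exists
  have h2 := (key2 n).trans (h n)
  rw [div_pow, lt_div_iff₀ (pow_pos hρ n), div_mul_eq_mul_div, div_lt_iff₀ h0'] at hn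
  rw [mul_comm] at h2
  linarith

end cvx

/-! ### The random walk on `k²` -/

section drift

variable {k : Type*} [NontriviallyNormedField k]

/-- the norm of a vector of `k²` -/
def nr (a b : k) : ℝ := max ‖a‖ ‖b‖

theorem nr_nonneg (a b : k) : 0 ≤ nr a b := le_max_of_le_left (norm_nonneg a)

theorem nr_comm (a b : k) : nr a b = nr b a := max_comm _ _

theorem nr_pos {a b : k} (h : ¬ (a = 0 ∧ b = 0)) : 0 < nr a b := by
  rcases eq_or_ne a 0 with ha | ha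
  · have hb : b ≠ 0 := fun hb => h ⟨ha, hb⟩
    exact lt_max_of_lt_right (norm_pos_iff.2 hb)
  · exact lt_max_of_lt_left (norm_pos_iff.2 ha)

/-- `x ^ (-δ) ≤ (1 + δ l + (δ l)²) y ^ (-δ)` if `y ≤ exp l * x` -/
theorem rp_le {x y l δ : ℝ} (hx : 0 < x) (hy : 0 < y) (hδ : 0 ≤ δ) (h : y ≤ Real.exp l * x)
    (hl : |δ * l| ≤ 1) : x ^ (-δ) ≤ (1 + δ * l + (δ * l) ^ 2) * y ^ (-δ) := by
  have h1 : (Real.exp l * x) ^ (-δ) ≤ y ^ (-δ) :=
    Real.rpow_le_rpow_of_nonpos hy h (by linarith)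
  have h2 : (Real.exp l * x) ^ (-δ) = Real.exp (-(δ * l)) * x ^ (-δ) := by
    rw [Real.mul_rpow (Real.exp_nonneg _) hx.le, ← Real.exp_mul]
    congr 2
    ring
  rw [h2] at h1
  have h3 : x ^ (-δ) ≤ Real.exp (δ * l) * y ^ (-δ) := by
    have h4 := mul_le_mul_of_nonneg_left h1 (Real.exp_nonneg (δ * l))
    rw [← mul_assoc, ← Real.exp_add, add_neg_cancel, Real.exp_zero, one_mul] at h4
    exact h4
  refine h3.trans (mul_le_mul_of_nonneg_right ?_ (Real.rpow_nonneg hy.le _))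
  have h5 := Real.abs_exp_sub_one_sub_id_le hl
  have h6 := le_abs_self (Real.exp (δ * l) - 1 - δ * l)
  linarith

theorem rp_le' {x y K δ : ℝ} (hx : 0 < x) (hy : 0 < y) (hδ : 0 ≤ δ) (hK : 0 < K)
    (h : y ≤ K * x) (hl : |δ * Real.log K| ≤ 1) :
    x ^ (-δ) ≤ (1 + δ * Real.log K + (δ * Real.log K) ^ 2) * y ^ (-δ) :=
  rp_le hx hy hδ (by rwa [Real.exp_log hK]) hl

/-- the eight terms -/
noncomputable def sm (t a b : k) (δ : ℝ) : ℝ :=
  nr (a + t * b) b ^ (-δ) + nr (a + (-t) * b) b ^ (-δ) +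
  nr (a + t ^ 2 * b) b ^ (-δ) + nr (a + (-(t ^ 2)) * b) b ^ (-δ) +
  (nr a (b + t * a) ^ (-δ) + nr a (b + (-t) * a) ^ (-δ) +
  nr a (b + t ^ 2 * a) ^ (-δ) + nr a (b + (-(t ^ 2)) * a) ^ (-δ))

theorem sm_swap (t a b : k) (δ : ℝ) : sm t a b δ = sm t b a δ := by
  unfold sm
  rw [nr_comm a (b + t * a), nr_comm a (b + -t * a), nr_comm a (b + t ^ 2 * a),
    nr_comm a (b + -(t ^ 2) * a), nr_comm b (a + t * b), nr_comm b (a + -t * b),
    nr_comm b (a + t ^ 2 * b), nr_comm b (a + -(t ^ 2) * b)]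
  ring

theorem ar_sq {c x : ℝ} (hc : 0 < c) (hcx : 6 * c ≤ x) (hx : x ≤ 1 / 432) :
    x * x ≤ x / 432 ∧ c * x ≤ x * x ∧ c * c ≤ c * x ∧ 0 ≤ c * x ∧ 0 ≤ c * c := by
  have hx0 : 0 < x := by linarith
  refine ⟨?_, ?_, ?_, by positivity, by positivity⟩
  · have := mul_le_mul_of_nonneg_left hx hx0.le
    linarith
  · exact mul_le_mul_of_nonneg_right (by linarith) hx0.le
  · exact mul_le_mul_of_nonneg_left (by linarith) hc.le

theorem ar1 {c x : ℝ} (hc : 0 < c) (hcx : 6 * c ≤ x) (hx : x ≤ 1 / 432) :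
    4 * (1 + c + c ^ 2) + 2 * (1 + (c - x) + (c - x) ^ 2) +
      2 * (1 + (c - 2 * x) + (c - 2 * x) ^ 2) ≤ 8 * (1 - x / 48) := by
  obtain ⟨q1, q2, q3, q4, q5⟩ := ar_sq hc hcx hx
  nlinarith

theorem ar2 {c x : ℝ} (hc : 0 < c) (hcx : 6 * c ≤ x) (hx : x ≤ 1 / 432) :
    2 * (1 + (c + x) + (c + x) ^ 2) + 2 * (1 + (2 * c - x) + (2 * c - x) ^ 2) +
      2 * (1 + (c - x) + (c - x) ^ 2) + 2 * (1 + (c - 2 * x) + (c - 2 * x) ^ 2) ≤
      8 * (1 - x / 48) := by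
  obtain ⟨q1, q2, q3, q4, q5⟩ := ar_sq hc hcx hx
  nlinarith

theorem ar3 {c x : ℝ} (hc : 0 < c) (hcx : 6 * c ≤ x) (hx : x ≤ 1 / 432) :
    2 * (1 + c + c ^ 2) + 2 * (1 + (c + 2 * x) + (c + 2 * x) ^ 2) +
      2 * (1 + (c - x) + (c - x) ^ 2) + 2 * (1 + (c - 2 * x) + (c - 2 * x) ^ 2) ≤
      8 * (1 - x / 48) := by
  obtain ⟨q1, q2, q3, q4, q5⟩ := ar_sq hc hcx hx
  nlinarith

theorem g_ge {s a b : k} (hab : ‖b‖ ≤ ‖a‖) (hs : 2 ≤ ‖s‖) : ‖a‖ ≤ 2 / ‖s‖ * nr a (b + s * a) := by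
  have h1 : ‖s‖ * ‖a‖ - ‖b‖ ≤ ‖b + s * a‖ := by
    have h2 := norm_sub_norm_le (s * a) (-b)
    rw [norm_mul, norm_neg, sub_neg_eq_add, add_comm (s * a) b] at h2
    exact h2
  have h3 : ‖b + s * a‖ ≤ nr a (b + s * a) := le_max_right _ _
  have h4 : 0 ≤ ‖a‖ := norm_nonneg a
  have hs0 : 0 < ‖s‖ := by linarith
  rw [div_mul_eq_mul_div, le_div_iff₀ hs0]
  nlinarith

theorem f_ge₁ {s a b : k} : ‖a‖ - ‖s‖ * ‖b‖ ≤ nr (a + s * b) b := by
  have h1 := norm_sub_norm_le a (-(s * b))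
  rw [norm_neg, norm_mul, sub_neg_eq_add] at h1
  exact h1.trans (le_max_left _ _)

theorem f_ge₂ {s a b : k} : ‖s‖ * ‖b‖ - ‖a‖ ≤ nr (a + s * b) b := by
  have h1 := norm_sub_norm_le (s * b) (-a)
  rw [norm_neg, norm_mul, sub_neg_eq_add, add_comm (s * b) a] at h1
  exact h1.trans (le_max_left _ _)

theorem f_ge₃ {s a b : k} : ‖b‖ ≤ nr (a + s * b) b := le_max_right _ _

theorem drift_aux {t a b : k} (hT : 64 ≤ ‖t‖) (ha : a ≠ 0) (hab : ‖b‖ ≤ ‖a‖) {δ : ℝ}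
    (hδ : 0 < δ) (hδ' : δ * Real.log ‖t‖ ≤ 1 / 432) :
    sm t a b δ ≤ 8 * (1 - δ * Real.log ‖t‖ / 48) * nr a b ^ (-δ) := by
  obtain ⟨T, hTd⟩ : ∃ T : ℝ, T = ‖t‖ := ⟨_, rfl⟩
  rw [← hTd] at hT hδ' ⊢
  obtain ⟨N, hN⟩ : ∃ N : ℝ, N = ‖a‖ := ⟨_, rfl⟩
  have hN0 : 0 < N := by rw [hN]; exact norm_pos_iff.2 ha
  have hnr : nr a b = N := by rw [hN]; exact max_eq_left hab
  rw [hnr]
  have hT0 : 0 < T := by linarith
  obtain ⟨L, hL⟩ : ∃ L : ℝ, L = Real.log T := ⟨_, rfl⟩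
  have hLl : 6 * Real.log 2 ≤ L := by
    have h1 : Real.log 64 ≤ Real.log T := Real.log_le_log (by norm_num) hT
    have h2 : Real.log 64 = 6 * Real.log 2 := by
      rw [show (64 : ℝ) = 2 ^ 6 by norm_num, Real.log_pow]
      norm_num
    rw [hL, ← h2]
    exact h1
  rw [← hL] at hδ' ⊢
  have hl2 : 0 < Real.log 2 := Real.log_pos (by norm_num)
  obtain ⟨c, hc⟩ : ∃ c : ℝ, c = δ * Real.log 2 := ⟨_, rfl⟩
  obtain ⟨x, hx⟩ : ∃ x : ℝ, x = δ * L := ⟨_, rfl⟩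
  have hc0 : 0 < c := by rw [hc]; positivity
  have hcx : 6 * c ≤ x := by rw [hc, hx]; nlinarith
  have hx1 : x ≤ 1 / 432 := by rw [hx]; exact hδ'
  have hx0 : 0 < x := by linarith
  rw [← hx]
  -- logarithms
  have l1 : δ * Real.log (2 / T) = c - x := by
    rw [Real.log_div (by norm_num) hT0.ne', ← hL, hc, hx]; ring
  have l2 : δ * Real.log (2 / T ^ 2) = c - 2 * x := by
    rw [Real.log_div (by norm_num) (by positivity), Real.log_pow, ← hL, hc, hx]; push_cast; ring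
  have l3 : δ * Real.log 2 = c := hc.symm
  have l4 : δ * Real.log (2 * T) = c + x := by
    rw [Real.log_mul (by norm_num) hT0.ne', ← hL, hc, hx]; ring
  have l5 : δ * Real.log (4 / T) = 2 * c - x := by
    rw [Real.log_div (by norm_num) hT0.ne', ← hL, show (4 : ℝ) = 2 ^ 2 by norm_num, Real.log_pow,
      hc, hx]; push_cast; ring
  have l6 : δ * Real.log (2 * T ^ 2) = c + 2 * x := by
    rw [Real.log_mul (by norm_num) (by positivity), Real.log_pow, ← hL, hc, hx]; push_cast; ring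
  have hψ : 0 < N ^ (-δ) := Real.rpow_pos_of_pos hN0 _
  have hF0 : ∀ s : k, 0 < nr (a + s * b) b := fun s => nr_pos fun h => ha (by
    have h1 := h.1
    rw [h.2, mul_zero, add_zero] at h1
    exact h1)
  have hG0 : ∀ s : k, 0 < nr a (b + s * a) := fun s => nr_pos fun h => ha h.1
  have nt : ‖t‖ = T := hTd.symm
  have nt' : ‖-t‖ = T := by rw [norm_neg, nt]
  have nt2 : ‖t ^ 2‖ = T ^ 2 := by rw [norm_pow, nt]
  have nt2' : ‖-(t ^ 2)‖ = T ^ 2 := by rw [norm_neg, nt2]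
  have hT2 : 2 ≤ T := by linarith
  have hT22 : 2 ≤ T ^ 2 := by nlinarith
  -- the terms of the second kind
  have gy1 : ∀ s : k, ‖s‖ = T → nr a (b + s * a) ^ (-δ) ≤
      (1 + (c - x) + (c - x) ^ 2) * N ^ (-δ) := by
    intro s hs
    have h := rp_le' (hG0 s) hN0 hδ.le (show 0 < 2 / T by positivity)
      (by have := g_ge (s := s) hab (by rw [hs]; exact hT2); rwa [hs, ← hN] at this)
      (by rw [l1, abs_le]; constructor <;> linarith)
    rwa [l1] at h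
  have gy2 : ∀ s : k, ‖s‖ = T ^ 2 → nr a (b + s * a) ^ (-δ) ≤
      (1 + (c - 2 * x) + (c - 2 * x) ^ 2) * N ^ (-δ) := by
    intro s hs
    have h := rp_le' (hG0 s) hN0 hδ.le (show 0 < 2 / T ^ 2 by positivity)
      (by have := g_ge (s := s) hab (by rw [hs]; exact hT22); rwa [hs, ← hN] at this)
      (by rw [l2, abs_le]; constructor <;> linarith)
    rwa [l2] at h
  have y1 := gy1 t nt
  have y2 := gy1 (-t) nt'
  have y3 := gy2 (t ^ 2) nt2
  have y4 := gy2 (-(t ^ 2)) nt2'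
  -- the terms of the first kind, from a lower bound
  have fx : ∀ (s : k) (K l : ℝ), 0 < K → δ * Real.log K = l → |l| ≤ 1 →
      N ≤ K * nr (a + s * b) b → nr (a + s * b) b ^ (-δ) ≤ (1 + l + l ^ 2) * N ^ (-δ) := by
    intro s K l hK hl hl1 h
    have h' := rp_le' (hF0 s) hN0 hδ.le hK h (by rw [hl]; exact hl1)
    rwa [hl] at h'
  have ac : |c| ≤ 1 := by rw [abs_le]; constructor <;> linarith
  have acx : |c + x| ≤ 1 := by rw [abs_le]; constructor <;> linarith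
  have a2cx : |2 * c - x| ≤ 1 := by rw [abs_le]; constructor <;> linarith
  have acx2 : |c + 2 * x| ≤ 1 := by rw [abs_le]; constructor <;> linarith
  obtain ⟨B, hB⟩ : ∃ B : ℝ, B = ‖b‖ := ⟨_, rfl⟩
  have hB0 : 0 ≤ B := by rw [hB]; exact norm_nonneg b
  have F1 : ∀ s : k, N - ‖s‖ * B ≤ nr (a + s * b) b := fun s => by
    rw [hN, hB]; exact f_ge₁
  have F2 : ∀ s : k, ‖s‖ * B - N ≤ nr (a + s * b) b := fun s => by
    rw [hN, hB]; exact f_ge₂
  have F3 : ∀ s : k, B ≤ nr (a + s * b) b := fun s => by rw [hB]; exact f_ge₃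
  unfold sm
  rcases le_or_gt (T ^ 2 * B) (N / 2) with h0 | h0
  · -- all four at least `N / 2`
    have hTB : T * B ≤ N / 2 := by
      have h3 : 0 ≤ T * B := mul_nonneg hT0.le hB0
      have h4 : 1 * (T * B) ≤ T * (T * B) := mul_le_mul_of_nonneg_right (by linarith) h3
      have h5 : T * (T * B) = T ^ 2 * B := by ring
      linarith
    have f : ∀ s : k, ‖s‖ * B ≤ N / 2 → nr (a + s * b) b ^ (-δ) ≤ (1 + c + c ^ 2) * N ^ (-δ) :=
      fun s hs => fx s 2 c (by norm_num) l3 ac (by have := F1 s; linarith)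
    have x1 := f t (by rw [nt]; exact hTB)
    have x2 := f (-t) (by rw [nt']; exact hTB)
    have x3 := f (t ^ 2) (by rw [nt2]; exact h0)
    have x4 := f (-(t ^ 2)) (by rw [nt2']; exact h0)
    have hfin := ar1 hc0 hcx hx1
    have := mul_le_mul_of_nonneg_right hfin hψ.le
    linarith
  · rcases le_or_gt (2 * N) (T * B) with h1 | h1
    · have hTB : 2 * N ≤ T ^ 2 * B := by
        have h3 : 0 ≤ T * B := mul_nonneg hT0.le hB0
        have h4 : 1 * (T * B) ≤ T * (T * B) := mul_le_mul_of_nonneg_right (by linarith) h3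
        calc 2 * N ≤ 1 * (T * B) := by linarith
          _ ≤ T * (T * B) := h4
          _ = T ^ 2 * B := by ring
      have f : ∀ s : k, 2 * N ≤ ‖s‖ * B → nr (a + s * b) b ^ (-δ) ≤ (1 + c + c ^ 2) * N ^ (-δ) :=
        fun s hs => fx s 2 c (by norm_num) l3 ac (by have := F2 s; linarith)
      have x1 := f t (by rw [nt]; exact h1)
      have x2 := f (-t) (by rw [nt']; exact h1)
      have x3 := f (t ^ 2) (by rw [nt2]; exact hTB)
      have x4 := f (-(t ^ 2)) (by rw [nt2']; exact hTB)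
      have hfin := ar1 hc0 hcx hx1
      have := mul_le_mul_of_nonneg_right hfin hψ.le
      linarith
    · rcases le_or_gt (N / 2) (T * B) with h2 | h2
      · have f1 : ∀ s : k, nr (a + s * b) b ^ (-δ) ≤
            (1 + (c + x) + (c + x) ^ 2) * N ^ (-δ) :=
          fun s => fx s (2 * T) (c + x) (by positivity) l4 acx (by
            have := F3 s
            have h3 : 2 * T * B ≤ 2 * T * nr (a + s * b) b :=
              mul_le_mul_of_nonneg_left this (by positivity)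
            linarith)
        have f2 : ∀ s : k, ‖s‖ = T ^ 2 → nr (a + s * b) b ^ (-δ) ≤
            (1 + (2 * c - x) + (2 * c - x) ^ 2) * N ^ (-δ) :=
          fun s hs => fx s (4 / T) (2 * c - x) (by positivity) l5 a2cx (by
            have h3 := F2 s
            rw [hs] at h3
            rw [div_mul_eq_mul_div, le_div_iff₀ hT0]
            nlinarith)
        have x1 := f1 t
        have x2 := f1 (-t)
        have x3 := f2 (t ^ 2) nt2
        have x4 := f2 (-(t ^ 2)) nt2'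
        have hfin := ar2 hc0 hcx hx1
        have := mul_le_mul_of_nonneg_right hfin hψ.le
        linarith
      · have f1 : ∀ s : k, ‖s‖ = T → nr (a + s * b) b ^ (-δ) ≤ (1 + c + c ^ 2) * N ^ (-δ) :=
          fun s hs => fx s 2 c (by norm_num) l3 ac (by
            have := F1 s
            rw [hs] at this
            linarith)
        have f2 : ∀ s : k, nr (a + s * b) b ^ (-δ) ≤
            (1 + (c + 2 * x) + (c + 2 * x) ^ 2) * N ^ (-δ) :=
          fun s => fx s (2 * T ^ 2) (c + 2 * x) (by positivity) l6 acx2 (by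
            have := F3 s
            have h3 : 2 * T ^ 2 * B ≤ 2 * T ^ 2 * nr (a + s * b) b :=
              mul_le_mul_of_nonneg_left this (by positivity)
            linarith)
        have x1 := f1 t nt
        have x2 := f1 (-t) nt'
        have x3 := f2 (t ^ 2)
        have x4 := f2 (-(t ^ 2))
        have hfin := ar3 hc0 hcx hx1
        have := mul_le_mul_of_nonneg_right hfin hψ.le
        linarith

/-- **the drift of the random walk on `k²`** -/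
theorem drift {t a b : k} (hT : 64 ≤ ‖t‖) (hab : ¬ (a = 0 ∧ b = 0)) {δ : ℝ} (hδ : 0 < δ)
    (hδ' : δ * Real.log ‖t‖ ≤ 1 / 432) :
    sm t a b δ ≤ 8 * (1 - δ * Real.log ‖t‖ / 48) * nr a b ^ (-δ) := by
  rcases le_total ‖b‖ ‖a‖ with h | h
  · refine drift_aux hT (fun ha => hab ⟨ha, ?_⟩) h hδ hδ'
    rw [ha, norm_zero] at h
    exact norm_le_zero_iff.1 h
  · rw [sm_swap, nr_comm]
    refine drift_aux hT (fun hb => hab ⟨?_, hb⟩) h hδ hδ'
    rw [hb, norm_zero] at h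
    exact norm_le_zero_iff.1 h

end drift

end Vale.Agent.P092.H71.G
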