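import Vale.Agent.P092.H71.G.Gap1

/-!
P092 (helper71), TEAM P, block [P-GAP], abstract half, part 2: polynomial decay of the coefficients
of `SL_2(k)` on a total set of vectors gives finite averages of small norm, uniformly in the
representation.
-/

set_option linter.all false

open scoped InnerProductSpace
open Filter Topology

namespace Vale.Agent.P092.H71.G

section op

variable {k : Type*} [NontriviallyNormedField k]

/-- upper triangular -/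
def Xm (s : k) : Matrix.SpecialLinearGroup (Fin 2) k := ⟨!![1, s; 0, 1], by simp⟩

/-- lower triangular -/
def Ym (s : k) : Matrix.SpecialLinearGroup (Fin 2) k := ⟨!![1, 0; s, 1], by simp⟩

theorem Xm_inv (s : k) : (Xm s)⁻¹ = Xm (-s) := by
  rw [inv_eq_iff_mul_eq_one]
  apply Subtype.ext
  change (Xm s).1 * (Xm (-s)).1 = 1
  ext i j
  fin_cases i <;> fin_cases j <;> simp [Xm]

theorem Ym_inv (s : k) : (Ym s)⁻¹ = Ym (-s) := by
  rw [inv_eq_iff_mul_eq_one]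
  apply Subtype.ext
  change (Ym s).1 * (Ym (-s)).1 = 1
  ext i j
  fin_cases i <;> fin_cases j <;> simp [Ym]

/-- the norm of the first column -/
noncomputable def cf (A : Matrix.SpecialLinearGroup (Fin 2) k) : ℝ := nr (A.1 0 0) (A.1 1 0)

theorem cf_ne (A : Matrix.SpecialLinearGroup (Fin 2) k) : ¬ (A.1 0 0 = 0 ∧ A.1 1 0 = 0) := by
  rintro ⟨h0, h1⟩
  have h := A.2
  rw [Matrix.det_fin_two, h0, h1] at h
  simp at h

theorem cf_pos (A : Matrix.SpecialLinearGroup (Fin 2) k) : 0 < cf A := nr_pos (cf_ne A)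

theorem cf_X (s : k) (A : Matrix.SpecialLinearGroup (Fin 2) k) : cf (Xm s * A) = nr (A.1 0 0 + s * A.1 1 0) (A.1 1 0) := by
  have h0 : (Xm s * A).1 0 0 = A.1 0 0 + s * A.1 1 0 := by
    change ((Xm s).1 * A.1) 0 0 = _
    simp [Xm, Matrix.mul_apply, Fin.sum_univ_two]
  have h1 : (Xm s * A).1 1 0 = A.1 1 0 := by
    change ((Xm s).1 * A.1) 1 0 = _
    simp [Xm, Matrix.mul_apply, Fin.sum_univ_two]
  unfold cf
  rw [h0, h1]

theorem cf_Y (s : k) (A : Matrix.SpecialLinearGroup (Fin 2) k) : cf (Ym s * A) = nr (A.1 0 0) (A.1 1 0 + s * A.1 0 0) := by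
  have h0 : (Ym s * A).1 0 0 = A.1 0 0 := by
    change ((Ym s).1 * A.1) 0 0 = _
    simp [Ym, Matrix.mul_apply, Fin.sum_univ_two]
  have h1 : (Ym s * A).1 1 0 = A.1 1 0 + s * A.1 0 0 := by
    change ((Ym s).1 * A.1) 1 0 = _
    simp [Ym, Matrix.mul_apply, Fin.sum_univ_two]
    ring
  unfold cf
  rw [h0, h1]

/-- the eight steps -/
def spn (t : k) : Fin 8 → Matrix.SpecialLinearGroup (Fin 2) k :=
  ![Xm t, Xm (-t), Xm (t ^ 2), Xm (-(t ^ 2)), Ym t, Ym (-t), Ym (t ^ 2), Ym (-(t ^ 2))]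

theorem sum_spn {t : k} (hT : 64 ≤ ‖t‖) {δ : ℝ} (hδ : 0 < δ)
    (hδ' : δ * Real.log ‖t‖ ≤ 1 / 432) (A : Matrix.SpecialLinearGroup (Fin 2) k) :
    ∑ i, cf (spn t i * A) ^ (-δ) ≤ 8 * (1 - δ * Real.log ‖t‖ / 48) * cf A ^ (-δ) := by
  have h := drift hT (cf_ne A) hδ hδ'
  refine le_trans (le_of_eq ?_) h
  rw [Fin.sum_univ_eight]
  simp only [spn]
  simp only [Matrix.cons_val]
  rw [cf_X, cf_X, cf_X, cf_X, cf_Y, cf_Y, cf_Y, cf_Y]
  unfold sm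
  ring

/-- the pairing of the steps with their inverses -/
theorem spn_inv (t : k) (f : Matrix.SpecialLinearGroup (Fin 2) k → ℂ) : ∑ i, f ((spn t i)⁻¹) = ∑ i, f (spn t i) := by
  rw [Fin.sum_univ_eight, Fin.sum_univ_eight]
  simp only [spn]
  simp only [Matrix.cons_val]
  rw [Xm_inv, Xm_inv, Xm_inv, Xm_inv, Ym_inv, Ym_inv, Ym_inv, Ym_inv, neg_neg, neg_neg]
  ring

variable {H : Type*} [NormedAddCommGroup H] [InnerProductSpace ℂ H]
  {u : Matrix.SpecialLinearGroup (Fin 2) k →* (H →L[ℂ] H)}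

theorem u_mul (A B : Matrix.SpecialLinearGroup (Fin 2) k) (x : H) : u (A * B) x = u A (u B x) := by rw [map_mul]; rfl

theorem u_inner (hu : ∀ (A : Matrix.SpecialLinearGroup (Fin 2) k) (x : H), ‖u A x‖ = ‖x‖) (A : Matrix.SpecialLinearGroup (Fin 2) k) (x y : H) :
    ⟪u A x, u A y⟫_ℂ = ⟪x, y⟫_ℂ := by
  let f : H →ₗᵢ[ℂ] H := ⟨(u A).toLinearMap, hu A⟩
  exact f.inner_map_map x y

theorem u_adj (hu : ∀ (A : Matrix.SpecialLinearGroup (Fin 2) k) (x : H), ‖u A x‖ = ‖x‖) (A : Matrix.SpecialLinearGroup (Fin 2) k) (x y : H) :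
    ⟪u A x, y⟫_ℂ = ⟪x, u A⁻¹ y⟫_ℂ := by
  rw [← u_inner hu A⁻¹, ← u_mul, inv_mul_cancel, map_one]
  rfl

/-- the averaging operator -/
noncomputable def Tav (u : Matrix.SpecialLinearGroup (Fin 2) k →* (H →L[ℂ] H)) (t : k) : H →L[ℂ] H :=
  (8 : ℂ)⁻¹ • ∑ i : Fin 8, u (spn t i)

theorem Tav_apply (t : k) (x : H) : Tav u t x = (8 : ℂ)⁻¹ • ∑ i : Fin 8, u (spn t i) x := by
  simp [Tav]

theorem Tav_symm (hu : ∀ (A : Matrix.SpecialLinearGroup (Fin 2) k) (x : H), ‖u A x‖ = ‖x‖) (t : k) (x y : H) :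
    ⟪Tav u t x, y⟫_ℂ = ⟪x, Tav u t y⟫_ℂ := by
  rw [Tav_apply, Tav_apply, inner_smul_left, inner_smul_right, sum_inner, inner_sum]
  have h8 : (starRingEnd ℂ) (8 : ℂ)⁻¹ = (8 : ℂ)⁻¹ := by
    rw [map_inv₀]
    congr 1
    exact Complex.conj_ofNat 8
  rw [h8]
  congr 1
  have h1 : ∀ i, ⟪u (spn t i) x, y⟫_ℂ = ⟪x, u ((spn t i)⁻¹) y⟫_ℂ := fun i => u_adj hu _ x y
  simp_rw [h1]
  exact spn_inv t fun A => ⟪x, u A y⟫_ℂ

/-- **decay of the powers of the averaging operator** -/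
theorem decay_pow {t : k} (hT : 64 ≤ ‖t‖) {δ : ℝ} (hδ : 0 < δ)
    (hδ' : δ * Real.log ‖t‖ ≤ 1 / 432) {ξ : H} {C : ℝ} (hC : 0 ≤ C)
    (h : ∀ A : Matrix.SpecialLinearGroup (Fin 2) k, ‖⟪u A ξ, ξ⟫_ℂ‖ ≤ C * cf A ^ (-δ)) (n : ℕ) :
    ∀ A : Matrix.SpecialLinearGroup (Fin 2) k, ‖⟪(Tav u t ^ n) (u A ξ), ξ⟫_ℂ‖ ≤
      C * (1 - δ * Real.log ‖t‖ / 48) ^ n * cf A ^ (-δ) := by
  have hr0 : 0 ≤ 1 - δ * Real.log ‖t‖ / 48 := by linarith
  induction n with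
  | zero => intro A; simpa using h A
  | succ n ih =>
    intro A
    have e1 : (Tav u t ^ (n + 1)) (u A ξ) =
        (8 : ℂ)⁻¹ • ∑ i, (Tav u t ^ n) (u (spn t i * A) ξ) := by
      rw [pow_succ]
      change (Tav u t ^ n) (Tav u t (u A ξ)) = _
      rw [Tav_apply, map_smul, map_sum]
      simp_rw [u_mul]
    rw [e1, inner_smul_left, sum_inner, norm_mul]
    have h8 : ‖(starRingEnd ℂ) (8 : ℂ)⁻¹‖ = 8⁻¹ := by
      rw [RCLike.norm_conj, norm_inv]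
      norm_num
    rw [h8]
    have h2 : ‖∑ i, ⟪(Tav u t ^ n) (u (spn t i * A) ξ), ξ⟫_ℂ‖ ≤
        ∑ i, C * (1 - δ * Real.log ‖t‖ / 48) ^ n * cf (spn t i * A) ^ (-δ) :=
      (norm_sum_le _ _).trans (Finset.sum_le_sum fun i _ => ih _)
    rw [← Finset.mul_sum] at h2
    have h3 := mul_le_mul_of_nonneg_left (sum_spn hT hδ hδ' A)
      (mul_nonneg hC (pow_nonneg hr0 n))
    have h4 := h2.trans h3
    have h5 := mul_le_mul_of_nonneg_left h4 (show (0 : ℝ) ≤ 8⁻¹ by norm_num)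
    refine h5.trans (le_of_eq ?_)
    rw [pow_succ]
    ring

/-- norm of the powers on a vector with decaying coefficients -/
theorem pow_le {t : k} (hu : ∀ (A : Matrix.SpecialLinearGroup (Fin 2) k) (x : H), ‖u A x‖ = ‖x‖) (hT : 64 ≤ ‖t‖) {δ : ℝ} (hδ : 0 < δ)
    (hδ' : δ * Real.log ‖t‖ ≤ 1 / 432) {ξ : H} {C : ℝ} (hC : 0 ≤ C)
    (h : ∀ A : Matrix.SpecialLinearGroup (Fin 2) k, ‖⟪u A ξ, ξ⟫_ℂ‖ ≤ C * cf A ^ (-δ)) (n : ℕ) :
    ‖(Tav u t ^ n) ξ‖ ≤ Real.sqrt C * (1 - δ * Real.log ‖t‖ / 48) ^ n := by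
  have hr0 : 0 ≤ 1 - δ * Real.log ‖t‖ / 48 := by linarith
  have h1 := decay_pow (u := u) hT hδ hδ' hC h (2 * n) 1
  have hcf : cf (1 : Matrix.SpecialLinearGroup (Fin 2) k) = 1 := by
    unfold cf nr
    simp
  rw [hcf, Real.one_rpow, mul_one, map_one] at h1
  change ‖⟪(Tav u t ^ (2 * n)) ξ, ξ⟫_ℂ‖ ≤ _ at h1
  have hsym : ∀ (m : ℕ) (x y : H), ⟪(Tav u t ^ m) x, y⟫_ℂ = ⟪x, (Tav u t ^ m) y⟫_ℂ := by
    intro m
    induction m with
    | zero => intro x y; rfl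
    | succ m ih =>
      intro x y
      have a1 : (Tav u t ^ (m + 1)) x = Tav u t ((Tav u t ^ m) x) := by rw [pow_succ']; rfl
      have a2 : (Tav u t ^ (m + 1)) y = (Tav u t ^ m) (Tav u t y) := by rw [pow_succ]; rfl
      rw [a1, a2, Tav_symm hu, ih]
  have h2 : ⟪(Tav u t ^ (2 * n)) ξ, ξ⟫_ℂ = ⟪(Tav u t ^ n) ξ, (Tav u t ^ n) ξ⟫_ℂ := by
    have a1 : (Tav u t ^ (2 * n)) ξ = (Tav u t ^ n) ((Tav u t ^ n) ξ) := by
      rw [two_mul, pow_add]; rfl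
    rw [a1, hsym]
  rw [h2, inner_self_eq_norm_sq_to_K] at h1
  have h3 : ‖((‖(Tav u t ^ n) ξ‖ : ℂ)) ^ 2‖ = ‖(Tav u t ^ n) ξ‖ ^ 2 := by
    rw [norm_pow, Complex.norm_real, norm_norm]
  have h4 : ‖(Tav u t ^ n) ξ‖ ^ 2 ≤ C * (1 - δ * Real.log ‖t‖ / 48) ^ (2 * n) :=
    le_trans (le_of_eq h3.symm) h1
  have h5 : C * (1 - δ * Real.log ‖t‖ / 48) ^ (2 * n) =
      (Real.sqrt C * (1 - δ * Real.log ‖t‖ / 48) ^ n) ^ 2 := by
    rw [mul_pow, Real.sq_sqrt hC, ← pow_mul, mul_comm n 2]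
  rw [h5] at h4
  exact (pow_le_pow_iff_left₀ (norm_nonneg _)
    (mul_nonneg (Real.sqrt_nonneg _) (pow_nonneg hr0 n)) two_ne_zero).1 h4

/-- **the gap of the averaging operator** -/
theorem Tav_le {t : k} (hu : ∀ (A : Matrix.SpecialLinearGroup (Fin 2) k) (x : H), ‖u A x‖ = ‖x‖) (hT : 64 ≤ ‖t‖) {δ : ℝ} (hδ : 0 < δ)
    (hδ' : δ * Real.log ‖t‖ ≤ 1 / 432) {D : Set H}
    (h : ∀ ξ ∈ D, ∃ C : ℝ, 0 ≤ C ∧ ∀ A : Matrix.SpecialLinearGroup (Fin 2) k, ‖⟪u A ξ, ξ⟫_ℂ‖ ≤ C * cf A ^ (-δ)) {v : H}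
    (hv : v ∈ closure (Submodule.span ℂ D : Set H)) :
    ‖Tav u t v‖ ≤ (1 - δ * Real.log ‖t‖ / 48) * ‖v‖ := by
  have hL0 : 0 ≤ δ * Real.log ‖t‖ := mul_nonneg hδ.le (Real.log_nonneg (by linarith))
  have hr0 : 0 < 1 - δ * Real.log ‖t‖ / 48 := by linarith
  have key : ∀ v ∈ Submodule.span ℂ D, ∃ C : ℝ, ∀ n : ℕ,
      ‖(Tav u t ^ n) v‖ ≤ C * (1 - δ * Real.log ‖t‖ / 48) ^ n := by
    intro v hv
    induction hv using Submodule.span_induction with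
    | mem ξ hξ =>
      obtain ⟨C, hC, hC'⟩ := h ξ hξ
      exact ⟨_, fun n => pow_le hu hT hδ hδ' hC hC' n⟩
    | zero => exact ⟨0, fun n => by simp⟩
    | add x y _ _ hx hy =>
      obtain ⟨C, hC⟩ := hx
      obtain ⟨C', hC'⟩ := hy
      refine ⟨C + C', fun n => ?_⟩
      rw [map_add, add_mul]
      exact (norm_add_le _ _).trans (add_le_add (hC n) (hC' n))
    | smul c x _ hx =>
      obtain ⟨C, hC⟩ := hx
      refine ⟨‖c‖ * C, fun n => ?_⟩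
      rw [map_smul, norm_smul, mul_assoc]
      exact mul_le_mul_of_nonneg_left (hC n) (norm_nonneg c)
  have hcl : IsClosed {v : H | ‖Tav u t v‖ ≤ (1 - δ * Real.log ‖t‖ / 48) * ‖v‖} :=
    isClosed_le (Tav u t).continuous.norm (continuous_const.mul continuous_norm)
  refine closure_minimal (fun v hv => ?_) hcl hv
  obtain ⟨C, hC⟩ := key v hv
  exact norm_le_of_pow (fun x y => Tav_symm hu t x y) hr0 hC

/-- the powers of the averaging operator are averages -/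
theorem exists_avg (t : k) (m : ℕ) : ∃ (p : ℕ) (_ : 0 < p) (l : Fin p → Matrix.SpecialLinearGroup (Fin 2) k),
    ∀ (H : Type) [NormedAddCommGroup H] [InnerProductSpace ℂ H] (u : Matrix.SpecialLinearGroup (Fin 2) k →* (H →L[ℂ] H)) (v : H),
      (Tav u t ^ m) v = ((p : ℂ))⁻¹ • ∑ i, u (l i) v := by
  induction m with
  | zero =>
    refine ⟨1, one_pos, fun _ => 1, fun H _ _ u v => ?_⟩
    simp
  | succ m ih =>
    obtain ⟨p, hp, l, hl⟩ := ih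
    refine ⟨8 * p, by positivity, fun i => spn t (finProdFinEquiv.symm i).1 *
      l (finProdFinEquiv.symm i).2, fun H _ _ u v => ?_⟩
    have e1 : (Tav u t ^ (m + 1)) v = Tav u t ((Tav u t ^ m) v) := by rw [pow_succ']; rfl
    rw [e1, hl, map_smul, Tav_apply, smul_smul]
    have e2 : ∑ i, u (spn t (finProdFinEquiv.symm i).1 * l (finProdFinEquiv.symm i).2) v =
        ∑ x : Fin 8 × Fin p, u (spn t x.1 * l x.2) v :=
      Equiv.sum_comp finProdFinEquiv.symm fun x : Fin 8 × Fin p => u (spn t x.1 * l x.2) v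
    rw [e2, Fintype.sum_prod_type]
    have e3 : ∀ i : Fin 8, ∑ y : Fin p, u (spn t i * l y) v = u (spn t i) (∑ y, u (l y) v) := by
      intro i
      rw [map_sum]
      simp_rw [u_mul]
    simp only [e3]
    congr 1
    push_cast
    rw [mul_inv, mul_comm]

end op

/-- **Decay implies gap, uniformly**: for a rate `δ` and `e > 0` there is a finite family of
elements of `SL_2(k)` whose average has norm at most `e` on every invariant space which is spanned by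
vectors whose coefficients decay at rate `δ`. -/
theorem gap_of_decay (k : Type*) [NontriviallyNormedField k] {δ : ℝ} (hδ : 0 < δ) {e : ℝ}
    (he : 0 < e) : ∃ (p : ℕ) (_ : 0 < p) (l : Fin p → Matrix.SpecialLinearGroup (Fin 2) k),
    ∀ (H : Type) [NormedAddCommGroup H] [InnerProductSpace ℂ H]
      (u : Matrix.SpecialLinearGroup (Fin 2) k →* (H →L[ℂ] H)),
      (∀ (A : Matrix.SpecialLinearGroup (Fin 2) k) (x : H), ‖u A x‖ = ‖x‖) →
      ∀ (V : Submodule ℂ H), (∀ A : Matrix.SpecialLinearGroup (Fin 2) k, ∀ v ∈ V, u A v ∈ V) →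
      ∀ (D : Set H), (∀ v ∈ V, v ∈ closure (Submodule.span ℂ D : Set H)) →
      (∀ ξ ∈ D, ∃ C : ℝ, ∀ A : Matrix.SpecialLinearGroup (Fin 2) k,
        ‖⟪u A ξ, ξ⟫_ℂ‖ ≤ C * cf A ^ (-δ)) →
      ∀ v ∈ V, ‖((p : ℂ))⁻¹ • ∑ i, u (l i) v‖ ≤ e * ‖v‖ := by
  obtain ⟨t, ht⟩ := NormedField.exists_lt_norm k 64
  have hL : 0 < Real.log ‖t‖ := Real.log_pos (by linarith)
  obtain ⟨δ₀, hδ₀⟩ : ∃ δ₀ : ℝ, δ₀ = min δ (1 / 432 / Real.log ‖t‖) := ⟨_, rfl⟩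
  have h0 : 0 < δ₀ := by rw [hδ₀]; exact lt_min hδ (by positivity)
  have h1 : δ₀ ≤ δ := by rw [hδ₀]; exact min_le_left _ _
  have h2 : δ₀ * Real.log ‖t‖ ≤ 1 / 432 := by
    have : δ₀ ≤ 1 / 432 / Real.log ‖t‖ := by rw [hδ₀]; exact min_le_right _ _
    calc δ₀ * Real.log ‖t‖ ≤ 1 / 432 / Real.log ‖t‖ * Real.log ‖t‖ :=
          mul_le_mul_of_nonneg_right this hL.le
      _ = 1 / 432 := div_mul_cancel₀ _ hL.ne'
  obtain ⟨ρ, hρ⟩ : ∃ ρ : ℝ, ρ = 1 - δ₀ * Real.log ‖t‖ / 48 := ⟨_, rfl⟩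
  have hρ0 : 0 ≤ ρ := by rw [hρ]; linarith
  have hρ1 : ρ < 1 := by rw [hρ]; have := mul_pos h0 hL; linarith
  obtain ⟨m, hm⟩ := exists_pow_lt_of_lt_one he hρ1
  obtain ⟨p, hp, l, hl⟩ := exists_avg t m
  refine ⟨p, hp, l, fun H _ _ u hu V hV D hD hdec v hv => ?_⟩
  have hdec' : ∀ ξ ∈ D, ∃ C : ℝ, 0 ≤ C ∧ ∀ A : Matrix.SpecialLinearGroup (Fin 2) k,
      ‖⟪u A ξ, ξ⟫_ℂ‖ ≤ C * cf A ^ (-δ₀) := by
    intro ξ hξ
    obtain ⟨C, hC⟩ := hdec ξ hξ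
    refine ⟨max |C| (‖ξ‖ ^ 2), le_max_of_le_left (abs_nonneg C), fun A => ?_⟩
    rcases le_or_gt 1 (cf A) with hcf | hcf
    · refine (hC A).trans ?_
      have a1 : cf A ^ (-δ) ≤ cf A ^ (-δ₀) :=
        Real.rpow_le_rpow_of_exponent_le hcf (by linarith)
      have a2 : 0 ≤ cf A ^ (-δ) := Real.rpow_nonneg (cf_pos A).le _
      calc C * cf A ^ (-δ) ≤ max |C| (‖ξ‖ ^ 2) * cf A ^ (-δ) :=
            mul_le_mul_of_nonneg_right ((le_abs_self C).trans (le_max_left _ _)) a2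
        _ ≤ _ := mul_le_mul_of_nonneg_left a1 (le_max_of_le_left (abs_nonneg C))
    · have a1 : 1 ≤ cf A ^ (-δ₀) :=
        Real.one_le_rpow_of_pos_of_le_one_of_nonpos (cf_pos A) hcf.le (by linarith)
      have a2 := norm_inner_le_norm (𝕜 := ℂ) (u A ξ) ξ
      rw [hu, ← sq] at a2
      calc ‖⟪u A ξ, ξ⟫_ℂ‖ ≤ ‖ξ‖ ^ 2 := a2
        _ ≤ max |C| (‖ξ‖ ^ 2) * 1 := by rw [mul_one]; exact le_max_right _ _
        _ ≤ _ := mul_le_mul_of_nonneg_left a1 (le_max_of_le_left (abs_nonneg C))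
  have hstep : ∀ v ∈ V, Tav u t v ∈ V := by
    intro v hv
    rw [Tav_apply]
    exact V.smul_mem _ (V.sum_mem fun i _ => hV _ v hv)
  have hpow : ∀ n : ℕ, ∀ v ∈ V, (Tav u t ^ n) v ∈ V ∧ ‖(Tav u t ^ n) v‖ ≤ ρ ^ n * ‖v‖ := by
    intro n
    induction n with
    | zero => intro v hv; exact ⟨hv, by simp⟩
    | succ n ih =>
      intro v hv
      obtain ⟨i1, i2⟩ := ih v hv
      have a1 : (Tav u t ^ (n + 1)) v = Tav u t ((Tav u t ^ n) v) := by rw [pow_succ']; rfl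
      rw [a1]
      refine ⟨hstep _ i1, ?_⟩
      have a2 := Tav_le hu ht.le h0 h2 hdec' (hD _ i1)
      rw [← hρ] at a2
      calc ‖Tav u t ((Tav u t ^ n) v)‖ ≤ ρ * ‖(Tav u t ^ n) v‖ := a2
        _ ≤ ρ * (ρ ^ n * ‖v‖) := mul_le_mul_of_nonneg_left i2 hρ0
        _ = ρ ^ (n + 1) * ‖v‖ := by rw [pow_succ]; ring
  rw [← hl H u v]
  exact (hpow m v hv).2.trans (mul_le_mul_of_nonneg_right hm.le (norm_nonneg v))

end Vale.Agent.P092.H71.G
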